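import Vale.Agent.P210.Defs
import Mathlib.Analysis.InnerProductSpace.Calculus
import Mathlib.Analysis.SpecialFunctions.ExpDeriv
import Mathlib.Analysis.Calculus.ContDiff.Deriv
import Mathlib.Tactic

open Real Filter Topology

namespace Vale.Agent.P210

variable {n : ℕ} {F : ℝ → ℝ}


/-- The conformal radial metric `exp (2 F (|x|²)) δ`. -/
noncomputable def radialMetric (n : ℕ) (F : ℝ → ℝ) (x : EuclideanSpace ℝ (Fin n)) :
    Matrix (Fin n) (Fin n) ℝ :=
  exp (2 * F (‖x‖ ^ 2)) • (1 : Matrix (Fin n) (Fin n) ℝ)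

/-- The gradient of the conformal exponent. -/
noncomputable def gradW (F : ℝ → ℝ) (i : Fin n) (x : EuclideanSpace ℝ (Fin n)) : ℝ :=
  2 * deriv F (‖x‖ ^ 2) * x i

lemma radialMetric_inv (x : EuclideanSpace ℝ (Fin n)) :
    (radialMetric n F x)⁻¹ = exp (-(2 * F (‖x‖ ^ 2))) • (1 : Matrix (Fin n) (Fin n) ℝ) := by
  apply Matrix.inv_eq_right_inv
  rw [radialMetric, smul_mul_smul_comm, ← exp_add, add_neg_cancel, exp_zero, one_smul, one_mul]

lemma partial_radial {G : ℝ → ℝ} {G' : ℝ} (i : Fin n) {x : EuclideanSpace ℝ (Fin n)}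
    (hG : HasDerivAt G G' (‖x‖ ^ 2)) :
    partialDerivAt i (fun y => G (‖y‖ ^ 2)) x = G' * (2 * x i) := by
  have h := hG.comp_hasFDerivAt x (hasStrictFDerivAt_norm_sq x).hasFDerivAt
  have h' : fderiv ℝ (fun y => G (‖y‖ ^ 2)) x = G' • (2 • innerSL ℝ x) := h.fderiv
  rw [partialDerivAt, h']
  simp [EuclideanSpace.inner_single_right]

lemma hasDerivAt_F (hF : ContDiffOn ℝ 2 F (Set.Ioi 0)) {q : ℝ} (hq : 0 < q) :
    HasDerivAt F (deriv F q) q :=
  ((hF.differentiableOn (by norm_num)).differentiableAt (isOpen_Ioi.mem_nhds hq)).hasDerivAt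

lemma hasDerivAt_F' (hF : ContDiffOn ℝ 2 F (Set.Ioi 0)) {q : ℝ} (hq : 0 < q) :
    HasDerivAt (deriv F) (deriv (deriv F) q) q := by
  have h : ContDiffOn ℝ 1 (deriv F) (Set.Ioi 0) :=
    hF.deriv_of_isOpen isOpen_Ioi (by norm_num)
  exact ((h.differentiableOn (by norm_num)).differentiableAt (isOpen_Ioi.mem_nhds hq)).hasDerivAt

lemma christoffel_radial (hF : ContDiffOn ℝ 2 F (Set.Ioi 0)) (i j k : Fin n)
    {x : EuclideanSpace ℝ (Fin n)} (hx : x ≠ 0) :
    christoffel (radialMetric n F) i j k x =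
      (if i = k then gradW F j x else 0) + (if i = j then gradW F k x else 0) -
        (if j = k then gradW F i x else 0) := by
  have hq : 0 < ‖x‖ ^ 2 := by positivity
  have hd : ∀ a b c : Fin n, partialDerivAt a (fun y => radialMetric n F y b c) x =
      if b = c then exp (2 * F (‖x‖ ^ 2)) * (2 * gradW F a x) else 0 := by
    intro a b c
    by_cases hbc : b = c
    · subst hbc
      have := partial_radial (G := fun q => exp (2 * F q)) a
        ((hasDerivAt_F hF hq).const_mul 2).exp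
      simp only [radialMetric, Matrix.smul_apply, Matrix.one_apply_eq, smul_eq_mul, mul_one,
        ]
      rw [this, gradW, if_true]; ring
    · simp [partialDerivAt, radialMetric, Matrix.one_apply_ne hbc, hbc]
  rw [christoffel, radialMetric_inv]
  simp only [hd, Matrix.smul_apply, Matrix.one_apply, smul_eq_mul, mul_ite, mul_one, mul_zero,
    ite_mul, zero_mul, Finset.sum_ite_eq, Finset.mem_univ, if_true]
  have he : exp (-(2 * F (‖x‖ ^ 2))) * exp (2 * F (‖x‖ ^ 2)) = 1 := by
    rw [← exp_add, neg_add_cancel, exp_zero]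
  split_ifs <;> ring_nf <;> ring_nf at he <;> simp [he]

lemma partial_gradW (hF : ContDiffOn ℝ 2 F (Set.Ioi 0)) (i j : Fin n)
    {x : EuclideanSpace ℝ (Fin n)} (hx : x ≠ 0) :
    DifferentiableAt ℝ (gradW F j) x ∧ partialDerivAt i (gradW F j) x =
      4 * deriv (deriv F) (‖x‖ ^ 2) * x i * x j +
        (if i = j then 2 * deriv F (‖x‖ ^ 2) else 0) := by
  have hq : 0 < ‖x‖ ^ 2 := by positivity
  have h1 := ((hasDerivAt_F' hF hq).const_mul 2).comp_hasFDerivAt x
    (hasStrictFDerivAt_norm_sq x).hasFDerivAt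
  have h2 : HasFDerivAt (fun y : EuclideanSpace ℝ (Fin n) => y j)
      (EuclideanSpace.proj j : EuclideanSpace ℝ (Fin n) →L[ℝ] ℝ) x :=
    (EuclideanSpace.proj j : EuclideanSpace ℝ (Fin n) →L[ℝ] ℝ).hasFDerivAt
  have h3 : HasFDerivAt (gradW F j) _ x := h1.mul h2
  refine ⟨h3.differentiableAt, ?_⟩
  rw [partialDerivAt, h3.fderiv]
  simp [EuclideanSpace.inner_single_right, eq_comm]
  split_ifs <;> ring

/-- Scalar curvature of a conformal radial metric. -/
lemma scalarCurvature_radial (hF : ContDiffOn ℝ 2 F (Set.Ioi 0))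
    {x : EuclideanSpace ℝ (Fin n)} (hx : x ≠ 0) :
    scalarCurvature (radialMetric n F) x = -exp (-(2 * F (‖x‖ ^ 2))) * ((n : ℝ) - 1) *
      (8 * deriv (deriv F) (‖x‖ ^ 2) * ‖x‖ ^ 2 + 4 * (n : ℝ) * deriv F (‖x‖ ^ 2) +
        4 * ((n : ℝ) - 2) * deriv F (‖x‖ ^ 2) ^ 2 * ‖x‖ ^ 2) := by
  have hdG : ∀ a i j k : Fin n, partialDerivAt a (christoffel (radialMetric n F) i j k) x =
      (if i = k then partialDerivAt a (gradW F j) x else 0) +
        (if i = j then partialDerivAt a (gradW F k) x else 0) -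
        (if j = k then partialDerivAt a (gradW F i) x else 0) := by
    intro a i j k
    have hev : christoffel (radialMetric n F) i j k =ᶠ[𝓝 x] fun y =>
        (if i = k then gradW F j y else 0) + (if i = j then gradW F k y else 0) -
        (if j = k then gradW F i y else 0) := by
      filter_upwards [isOpen_ne.mem_nhds hx] with y hy using christoffel_radial hF i j k hy
    have hd := fun b => (partial_gradW hF a b hx).1
    unfold partialDerivAt
    rw [hev.fderiv_eq]
    split_ifs <;>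
      simp [fderiv_fun_add, fderiv_fun_sub, hd, fderiv_fun_neg]
  set a := exp (-(2 * F (‖x‖ ^ 2)))
  set W := fun i : Fin n => gradW F i x
  set D := ∑ i : Fin n, partialDerivAt i (gradW F i) x with hD
  set S := ∑ i : Fin n, W i * W i with hS
  have key : scalarCurvature (radialMetric n F) x =
      a * ((2 - 2 * (n : ℝ)) * D - ((n : ℝ) - 1) * ((n : ℝ) - 2) * S) := by
    rw [scalarCurvature, radialMetric_inv]
    simp only [Matrix.smul_apply, Matrix.one_apply, smul_eq_mul, mul_ite, mul_one, mul_zero,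
      ite_mul, zero_mul, Finset.sum_ite_eq, Finset.mem_univ, if_true]
    rw [← Finset.mul_sum]
    congr 1
    simp only [hdG, christoffel_radial hF _ _ _ hx, hD, hS, W]
    simp [Finset.sum_add_distrib, Finset.sum_sub_distrib, add_mul, mul_add, sub_mul, mul_sub,
      ite_mul, mul_ite, Finset.mul_sum, Finset.sum_mul]
    ring_nf
    simp only [← Finset.mul_sum, ← Finset.sum_mul]
    ring
  have hsum : ∑ i : Fin n, x i * x i = ‖x‖ ^ 2 := by
    rw [EuclideanSpace.real_norm_sq_eq]
    simp [sq]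
  have hDv : D = 4 * deriv (deriv F) (‖x‖ ^ 2) * ‖x‖ ^ 2 + 2 * (n : ℝ) * deriv F (‖x‖ ^ 2) := by
    rw [hD]
    simp only [fun i => (partial_gradW hF i i hx).2, if_pos, Finset.sum_add_distrib, mul_assoc,
      ← Finset.mul_sum, hsum]
    simp
    try ring
  have hSv : S = 4 * deriv F (‖x‖ ^ 2) ^ 2 * ‖x‖ ^ 2 := by
    calc S = ∑ i : Fin n, 4 * deriv F (‖x‖ ^ 2) ^ 2 * (x i * x i) :=
          Finset.sum_congr rfl fun i _ => by simp only [W, gradW]; ring
      _ = _ := by rw [← Finset.mul_sum, hsum]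
  rw [key, hDv, hSv]; ring

end Vale.Agent.P210
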