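import Mathlib.Analysis.InnerProductSpace.PiL2
import Mathlib.Analysis.Calculus.FDeriv.Basic
import Mathlib.Analysis.Calculus.Deriv.Basic
import Mathlib.Analysis.Calculus.ContDiff.Defs
import Mathlib.MeasureTheory.Integral.Lebesgue.Basic
import Mathlib.MeasureTheory.Measure.Lebesgue.Basic
import Mathlib.LinearAlgebra.Matrix.NonsingularInverse
import Mathlib.LinearAlgebra.Matrix.DotProduct

namespace Vale.Agent.P210

/-- The `i`-th partial derivative on Euclidean space. -/
noncomputable def partialDerivAt {n : ℕ} (i : Fin n) (f : EuclideanSpace ℝ (Fin n) → ℝ)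
    (x : EuclideanSpace ℝ (Fin n)) : ℝ :=
  fderiv ℝ f x (EuclideanSpace.single i 1)

/-- Christoffel symbols of the metric with coordinate matrix `g`. -/
noncomputable def christoffel {n : ℕ} (g : EuclideanSpace ℝ (Fin n) → Matrix (Fin n) (Fin n) ℝ)
    (i j k : Fin n) (x : EuclideanSpace ℝ (Fin n)) : ℝ :=
  (1 / 2) * ∑ l, (g x)⁻¹ i l * (partialDerivAt j (fun y => g y l k) x +
    partialDerivAt k (fun y => g y l j) x - partialDerivAt l (fun y => g y j k) x)

/-- Scalar curvature of the metric with coordinate matrix `g`. -/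
noncomputable def scalarCurvature {n : ℕ}
    (g : EuclideanSpace ℝ (Fin n) → Matrix (Fin n) (Fin n) ℝ)
    (x : EuclideanSpace ℝ (Fin n)) : ℝ :=
  ∑ j, ∑ k, (g x)⁻¹ j k *
    ((∑ i, (partialDerivAt i (christoffel g i j k) x - partialDerivAt j (christoffel g i i k) x)) +
      ∑ i, ∑ l, (christoffel g i i l x * christoffel g l j k x -
        christoffel g i j l x * christoffel g l i k x))

/-- Length of a path for the metric `g`, as a Lebesgue integral with values in `[0, ∞]`. -/
noncomputable def pathLength {n : ℕ} (g : EuclideanSpace ℝ (Fin n) → Matrix (Fin n) (Fin n) ℝ)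
    (γ : ℝ → EuclideanSpace ℝ (Fin n)) : ENNReal :=
  ∫⁻ t in Set.Icc (0 : ℝ) 1,
    ENNReal.ofReal (Real.sqrt (∑ i, ∑ j, g (γ t) i j * deriv γ t i * deriv γ t j))

/-- Riemannian distance on the open set `U`: infimum of lengths of `C¹` paths in `U`. -/
noncomputable def riemDist {n : ℕ} (g : EuclideanSpace ℝ (Fin n) → Matrix (Fin n) (Fin n) ℝ)
    (U : Set (EuclideanSpace ℝ (Fin n))) (x y : EuclideanSpace ℝ (Fin n)) : ENNReal :=
  ⨅ (γ : ℝ → EuclideanSpace ℝ (Fin n))
    (_ : ContDiff ℝ 1 γ ∧ γ 0 = x ∧ γ 1 = y ∧ ∀ t ∈ Set.Icc (0 : ℝ) 1, γ t ∈ U),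
    pathLength g γ

end Vale.Agent.P210
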