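import Mathlib.Analysis.SpecialFunctions.ExpDeriv
import Mathlib.Analysis.SpecialFunctions.Sqrt
import Mathlib.Analysis.Calculus.Deriv.MeanValue
import Mathlib.Analysis.Calculus.Deriv.Pow

open Set Real

namespace Vale.Agent.P210

variable {m : ℝ} {u v z : ℝ → ℝ}

/-- The energy of the warped radial equation. -/
noncomputable def energy (m : ℝ) (u v : ℝ → ℝ) (s : ℝ) : ℝ :=
  exp ((m - 2) * u s) * (1 - v s ^ 2) - exp (m * u s) / (m * (m - 1))

lemma exp_split (m a : ℝ) : exp (m * a) = exp ((m - 2) * a) * exp (2 * a) := by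
  rw [← exp_add]; congr 1; ring

lemma energy_hasDerivAt (hm : 3 ≤ m) (hu : ∀ s, HasDerivAt u (v s) s)
    (hv : ∀ s, HasDerivAt v (z s) s) (s : ℝ) :
    HasDerivAt (energy m u v)
      (v s * exp ((m - 2) * u s) *
        ((m - 2) - (m - 2) * v s ^ 2 - 2 * z s - exp (2 * u s) / (m - 1))) s := by
  have h1 := (((hu s).const_mul (m - 2)).exp.mul (((hv s).pow 2).const_sub 1)).sub
    (((hu s).const_mul m).exp.div_const (m * (m - 1)))
  refine HasDerivAt.congr_deriv h1 ?_
  simp only [Pi.pow_apply]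
  rw [exp_split m (u s)]
  have : m ≠ 0 := by linarith
  have : m - 1 ≠ 0 := by linarith
  field_simp
  ring

/-- A positive slope above the threshold contradicts global existence. -/
lemma no_rising (hm : 3 ≤ m) (hu : ∀ s, HasDerivAt u (v s) s)
    (hv : ∀ s, HasDerivAt v (z s) s)
    (hode : ∀ s, 2 * z s + (m - 2) * v s ^ 2 ≤ (m - 2) - exp (2 * u s) / (m - 1))
    (s₀ : ℝ) (hbig : m * (m - 1) < exp (2 * u s₀)) (hpos : 0 < v s₀) : False := by
  set δ : ℝ := exp ((m - 2) * u s₀) * v s₀ ^ 2 with hδdef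
  have hδ : 0 < δ := by positivity
  have hc : 0 < m * (m - 1) := mul_pos (by linarith) (by linarith)
  -- The key estimate on an interval where `u` rises up to `s₀`.
  have key : ∀ s ≤ s₀, (∀ t ∈ Ioo s s₀, 0 ≤ v t) →
      δ ≤ exp ((m - 2) * u s) * v s ^ 2 := by
    intro s hs hmon
    have hEm : MonotoneOn (energy m u v) (Icc s s₀) := by
      refine monotoneOn_of_deriv_nonneg (convex_Icc _ _)
        (fun t _ => (energy_hasDerivAt hm hu hv t).continuousAt.continuousWithinAt)
        (fun t _ => (energy_hasDerivAt hm hu hv t).differentiableAt.differentiableWithinAt) ?_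
      intro t ht
      rw [interior_Icc] at ht
      rw [(energy_hasDerivAt hm hu hv t).deriv]
      exact mul_nonneg (mul_nonneg (hmon t ht) (exp_pos _).le) (by linarith [hode t])
    have hum : MonotoneOn u (Icc s s₀) := by
      refine monotoneOn_of_deriv_nonneg (convex_Icc _ _)
        (fun t _ => (hu t).continuousAt.continuousWithinAt)
        (fun t _ => (hu t).differentiableAt.differentiableWithinAt) ?_
      intro t ht
      rw [interior_Icc] at ht
      rw [(hu t).deriv]
      exact hmon t ht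
    have hE := hEm ⟨le_rfl, hs⟩ ⟨hs, le_rfl⟩ hs
    have huu := hum ⟨le_rfl, hs⟩ ⟨hs, le_rfl⟩ hs
    have hh : exp ((m - 2) * u s₀) * (1 - exp (2 * u s₀) / (m * (m - 1))) ≤
        exp ((m - 2) * u s) * (1 - exp (2 * u s) / (m * (m - 1))) := by
      have hneg : 1 - exp (2 * u s₀) / (m * (m - 1)) ≤ 0 := by
        have : 1 ≤ exp (2 * u s₀) / (m * (m - 1)) := by
          rw [le_div_iff₀ hc]; linarith
        linarith
      rcases le_or_gt 0 (1 - exp (2 * u s) / (m * (m - 1))) with hcase | hcase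
      · exact (mul_nonpos_of_nonneg_of_nonpos (exp_pos _).le hneg).trans
          (mul_nonneg (exp_pos _).le hcase)
      · have h2 : exp (2 * u s) / (m * (m - 1)) ≤ exp (2 * u s₀) / (m * (m - 1)) := by
          gcongr
        have hm2 : exp ((m - 2) * u s) ≤ exp ((m - 2) * u s₀) :=
          exp_le_exp.2 (mul_le_mul_of_nonneg_left huu (by linarith))
        calc exp ((m - 2) * u s₀) * (1 - exp (2 * u s₀) / (m * (m - 1)))
            ≤ exp ((m - 2) * u s₀) * (1 - exp (2 * u s) / (m * (m - 1))) :=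
              mul_le_mul_of_nonneg_left (by linarith) (exp_pos _).le
          _ ≤ exp ((m - 2) * u s) * (1 - exp (2 * u s) / (m * (m - 1))) :=
              mul_le_mul_of_nonpos_right hm2 hcase.le
    have hid : ∀ t, exp ((m - 2) * u t) * (1 - exp (2 * u t) / (m * (m - 1))) -
        energy m u v t = exp ((m - 2) * u t) * v t ^ 2 := by
      intro t; rw [energy, exp_split m (u t)]; ring
    rw [hδdef, ← hid, ← hid]
    linarith
  have hvc : Continuous v := continuous_iff_continuousAt.2 fun t => (hv t).continuousAt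
  -- The slope never vanishes to the left of `s₀`.
  have hall : ∀ s ≤ s₀, 0 < v s := by
    by_contra hne
    push Not at hne
    obtain ⟨a, ha, hva⟩ := hne
    set Z : Set ℝ := {t | t ∈ Icc a s₀ ∧ v t ≤ 0}
    have hZc : IsClosed Z := isClosed_Icc.inter (isClosed_le hvc continuous_const)
    have hZb : BddAbove Z := ⟨s₀, fun t ht => ht.1.2⟩
    have hZ : sSup Z ∈ Z := hZc.csSup_mem ⟨a, ⟨le_rfl, ha⟩, hva⟩ hZb
    have hright : ∀ t ∈ Ioc (sSup Z) s₀, 0 < v t := by
      intro t ht
      by_contra h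
      exact absurd (le_csSup hZb ⟨⟨hZ.1.1.trans ht.1.le, ht.2⟩, le_of_not_gt h⟩) (not_le.2 ht.1)
    have hlt : sSup Z < s₀ :=
      lt_of_le_of_ne hZ.1.2 fun h => absurd hZ.2 (by rw [h]; exact not_le.2 hpos)
    have h0 : v (sSup Z) = 0 := by
      refine le_antisymm hZ.2 ?_
      refine le_of_tendsto_of_tendsto tendsto_const_nhds
        ((hvc.tendsto (sSup Z)).mono_left nhdsWithin_le_nhds) (f := fun _ => (0 : ℝ))
        (b := nhdsWithin (sSup Z) (Ioi (sSup Z))) ?_
      filter_upwards [Ioc_mem_nhdsGT hlt] with t ht using (hright t ht).le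
    have := key _ hZ.1.2 fun t ht => (hright t ⟨ht.1, ht.2.le⟩).le
    rw [h0] at this
    simp at this
    linarith
  -- Hence `exp ((m - 2) u / 2)` has slope bounded below, yet is positive.
  set w : ℝ → ℝ := fun t => exp ((m - 2) / 2 * u t)
  have hw : ∀ t, HasDerivAt w (w t * ((m - 2) / 2 * v t)) t :=
    fun t => ((hu t).const_mul _).exp
  set η : ℝ := (m - 2) / 2 * sqrt δ
  have hη : 0 < η := mul_pos (by linarith) (sqrt_pos.2 hδ)
  have hslope : ∀ t ≤ s₀, η ≤ w t * ((m - 2) / 2 * v t) := by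
    intro t ht
    have h1 := key t ht fun r hr => (hall r hr.2.le).le
    have h2 : (w t * v t) ^ 2 = exp ((m - 2) * u t) * v t ^ 2 := by
      rw [mul_pow, sq (w t), ← exp_add]; ring_nf
    have h3 : sqrt δ ≤ w t * v t :=
      (sqrt_le_iff).2 ⟨(mul_pos (exp_pos _) (hall t ht)).le, by rw [h2]; exact h1⟩
    calc η = (m - 2) / 2 * sqrt δ := rfl
      _ ≤ (m - 2) / 2 * (w t * v t) := mul_le_mul_of_nonneg_left h3 (by linarith)
      _ = w t * ((m - 2) / 2 * v t) := by ring
  set s : ℝ := s₀ - (w s₀ / η + 1)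
  have hs : s ≤ s₀ := by
    have : 0 ≤ w s₀ / η := div_nonneg (exp_pos _).le hη.le
    simp only [s]; linarith
  have := (convex_Iic s₀).mul_sub_le_image_sub_of_le_deriv
    (fun t _ => (hw t).continuousAt.continuousWithinAt)
    (fun t _ => (hw t).differentiableAt.differentiableWithinAt)
    (C := η) (fun t ht => by
      rw [interior_Iic] at ht; rw [(hw t).deriv]; exact hslope t ht.le)
    s hs s₀ (mem_Iic.2 le_rfl) hs
  have hws : 0 < w s := exp_pos _
  have hmul : η * (s₀ - s) = w s₀ + η := by simp only [s]; field_simp; ring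
  linarith

lemma exp_le_bound (hm : 3 ≤ m) (hu : ∀ s, HasDerivAt u (v s) s)
    (hv : ∀ s, HasDerivAt v (z s) s)
    (hode : ∀ s, 2 * z s + (m - 2) * v s ^ 2 ≤ (m - 2) - exp (2 * u s) / (m - 1))
    (s₀ : ℝ) : exp (2 * u s₀) ≤ m * (m - 1) := by
  by_contra h
  push Not at h
  rcases lt_trichotomy (v s₀) 0 with hneg | h0 | hpos
  · refine no_rising (u := fun t => u (-t)) (v := fun t => -v (-t)) (z := fun t => z (-t)) hm
      (fun t => ?_) (fun t => ?_) (fun t => ?_) (-s₀) (by simpa using h) (by simpa using hneg)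
    · exact ((hu (-t)).comp t (hasDerivAt_neg t)).congr_deriv (by ring)
    · exact ((hv (-t)).comp t (hasDerivAt_neg t)).neg.congr_deriv (by ring)
    · simpa [neg_sq] using hode (-t)
  · have hz : z s₀ < 0 := by
      have h1 := hode s₀
      rw [h0] at h1
      have : m < exp (2 * u s₀) / (m - 1) := by rw [lt_div_iff₀ (by linarith)]; linarith
      nlinarith
    have hev : ∀ᶠ t in nhdsWithin s₀ (Iio s₀),
        0 < v t ∧ m * (m - 1) < exp (2 * u t) := by
      have hcu : ContinuousAt (fun t => exp (2 * u t)) s₀ :=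
        ((hu s₀).const_mul 2).exp.continuousAt
      have e1 := ((hcu.eventually (lt_mem_nhds h)).filter_mono
        (nhdsWithin_le_nhds (s := Iio s₀)))
      have e2 : ∀ᶠ t in nhdsWithin s₀ (Iio s₀), slope v s₀ t < 0 :=
        ((hasDerivAt_iff_tendsto_slope.1 (hv s₀)).mono_left
          (nhdsWithin_mono _ (fun t ht => (ne_of_lt ht)))).eventually (gt_mem_nhds hz)
      filter_upwards [e1, e2, self_mem_nhdsWithin] with t ht1 ht2 ht3
      refine ⟨?_, ht1⟩
      rw [slope_def_field, h0, sub_zero] at ht2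
      rcases div_neg_iff.1 ht2 with ⟨ha, _⟩ | ⟨_, hb⟩
      · exact ha
      · exact absurd hb (not_lt.2 (by linarith [show t < s₀ from ht3]))
    obtain ⟨t, ht1, ht2⟩ := hev.exists
    exact no_rising hm hu hv hode t ht2 ht1
  · exact no_rising hm hu hv hode s₀ h hpos

end Vale.Agent.P210
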