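import Vale.Agent.P210.Curvature
import Vale.Agent.P210.ODE
import Mathlib.Analysis.SpecialFunctions.Trigonometric.Deriv
import Mathlib.Analysis.SpecialFunctions.Trigonometric.Inverse
import Mathlib.Analysis.SpecialFunctions.Trigonometric.DerivHyp

open Real Filter Topology
open scoped RealInnerProductSpace

namespace Vale.Agent.P210

variable {n : ℕ} {F : ℝ → ℝ}

lemma warping_bound (hn : 3 ≤ n) (hF : ContDiffOn ℝ 2 F (Set.Ioi 0))
    (hS : ∀ x : EuclideanSpace ℝ (Fin n), x ≠ 0 → 1 ≤ scalarCurvature (radialMetric n F) x)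
    {q : ℝ} (hq : 0 < q) : q * exp (2 * F q) ≤ (n : ℝ) * ((n : ℝ) - 1) := by
  have hn' : (3 : ℝ) ≤ n := by exact_mod_cast hn
  have hid : ∀ {p : ℝ}, 0 < p → 1 ≤ -exp (-(2 * F p)) * ((n : ℝ) - 1) *
      (8 * deriv (deriv F) p * p + 4 * (n : ℝ) * deriv F p +
        4 * ((n : ℝ) - 2) * deriv F p ^ 2 * p) := by
    intro p hp
    set x : EuclideanSpace ℝ (Fin n) := EuclideanSpace.single ⟨0, by omega⟩ (sqrt p)
    have hnx : ‖x‖ ^ 2 = p := by simp [x, sq_sqrt hp.le]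
    have hx : x ≠ 0 := by
      intro h; rw [h] at hnx; simp at hnx; linarith
    have := hS x hx
    rwa [scalarCurvature_radial hF hx, hnx] at this
  set u : ℝ → ℝ := fun s => s + F (exp (2 * s))
  set v : ℝ → ℝ := fun s => 1 + 2 * exp (2 * s) * deriv F (exp (2 * s))
  set z : ℝ → ℝ := fun s => 4 * exp (2 * s) * deriv F (exp (2 * s)) +
    4 * exp (2 * s) ^ 2 * deriv (deriv F) (exp (2 * s))
  have he : ∀ s : ℝ, HasDerivAt (fun t => exp (2 * t)) (2 * exp (2 * s)) s := fun s =>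
    ((hasDerivAt_id' s).const_mul 2).exp.congr_deriv (by ring)
  have hu : ∀ s, HasDerivAt u (v s) s := fun s =>
    ((hasDerivAt_id' s).add ((hasDerivAt_F hF (exp_pos (2 * s))).comp s (he s))).congr_deriv
      (by simp only [v]; ring)
  have hv : ∀ s, HasDerivAt v (z s) s := by
    intro s
    have h := ((((he s).const_mul 2).mul
      ((hasDerivAt_F' hF (exp_pos (2 * s))).comp s (he s))).const_add 1)
    refine HasDerivAt.congr_deriv h ?_
    simp only [z, Function.comp_apply]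
    ring
  have hode : ∀ s, 2 * z s + ((n : ℝ) - 2) * v s ^ 2 ≤
      ((n : ℝ) - 2) - exp (2 * u s) / ((n : ℝ) - 1) := by
    intro s
    have hp : (0 : ℝ) < exp (2 * s) := exp_pos _
    have h := hid hp
    have hu2 : exp (2 * u s) = exp (2 * s) * exp (2 * F (exp (2 * s))) := by
      rw [← exp_add]; congr 1; simp only [u]; ring
    set a := exp (2 * F (exp (2 * s))) with ha
    have ha0 : 0 < a := exp_pos _
    have hinv : exp (-(2 * F (exp (2 * s)))) = a⁻¹ := exp_neg _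
    rw [hinv] at h
    rw [hu2, show exp (2 * s) * a / ((n : ℝ) - 1) = exp (2 * s) * (a / ((n : ℝ) - 1)) by ring]
    set B := 8 * deriv (deriv F) (exp (2 * s)) * exp (2 * s) +
      4 * (n : ℝ) * deriv F (exp (2 * s)) +
        4 * ((n : ℝ) - 2) * deriv F (exp (2 * s)) ^ 2 * exp (2 * s) with hB
    have h2 : a / ((n : ℝ) - 1) ≤ -B := by
      rw [div_le_iff₀ (by linarith)]
      have h' := mul_le_mul_of_nonneg_left h ha0.le
      have hc : a * (-a⁻¹ * ((n : ℝ) - 1) * B) = -(((n : ℝ) - 1) * B) := by field_simp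
      rw [hc] at h'
      linarith
    have h3 := mul_le_mul_of_nonneg_left h2 hp.le
    have h4 : 2 * z s + ((n : ℝ) - 2) * v s ^ 2 = ((n : ℝ) - 2) + exp (2 * s) * B := by
      simp only [z, v, hB]; ring
    linarith
  have := exp_le_bound hn' hu hv hode (log q / 2)
  have hs : 2 * (log q / 2) = log q := by ring
  simp only [u, mul_add, exp_add, hs, exp_log hq] at this
  exact this

lemma exists_orth (hn : 2 ≤ n) (x y : EuclideanSpace ℝ (Fin n)) (hr : ‖y‖ = ‖x‖) :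
    ∃ z : EuclideanSpace ℝ (Fin n), ∃ θ ∈ Set.Icc (0 : ℝ) π,
      ⟪x, z⟫ = 0 ∧ ‖z‖ = ‖x‖ ∧ cos θ • x + sin θ • z = y := by
  rcases eq_or_ne x 0 with rfl | hx
  · refine ⟨0, 0, ⟨le_rfl, pi_pos.le⟩, ?_⟩
    have : y = 0 := by simpa using hr
    simp [this]
  set r := ‖x‖
  have hr0 : 0 < r := norm_pos_iff.2 hx
  set c := ⟪x, y⟫ / r ^ 2
  set p := y - c • x
  have hcb : |c| ≤ 1 := by
    rw [abs_div, abs_of_pos (by positivity : (0 : ℝ) < r ^ 2), div_le_one (by positivity)]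
    calc |⟪x, y⟫| ≤ ‖x‖ * ‖y‖ := abs_real_inner_le_norm _ _
      _ = r ^ 2 := by rw [hr]; ring
  have hxp : ⟪x, p⟫ = 0 := by
    simp only [p, inner_sub_right, inner_smul_right, real_inner_self_eq_norm_sq]
    simp only [c, r]; field_simp; ring
  obtain ⟨w, hw0, hxw, hpw⟩ : ∃ w : EuclideanSpace ℝ (Fin n),
      w ≠ 0 ∧ ⟪x, w⟫ = 0 ∧ ∃ t : ℝ, 0 ≤ t ∧ p = t • w := by
    by_cases hp : p = 0
    · have hdim : (ℝ ∙ x) ≠ ⊤ := by
        intro h
        have := finrank_span_singleton (K := ℝ) hx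
        rw [h, finrank_top, finrank_euclideanSpace_fin] at this
        omega
      have : (ℝ ∙ x)ᗮ ≠ ⊥ := fun h => hdim (Submodule.orthogonal_eq_bot_iff.1 h)
      obtain ⟨w, hw, hw0⟩ := Submodule.exists_mem_ne_zero_of_ne_bot this
      exact ⟨w, hw0, Submodule.mem_orthogonal_singleton_iff_inner_right.1 hw, 0, le_rfl, by simp [hp]⟩
    · exact ⟨p, hp, hxp, 1, zero_le_one, (one_smul _ _).symm⟩
  obtain ⟨t, ht, hpt⟩ := hpw
  have hw : 0 < ‖w‖ := norm_pos_iff.2 hw0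
  refine ⟨(r / ‖w‖) • w, arccos c, ⟨arccos_nonneg _, arccos_le_pi _⟩, ?_, ?_, ?_⟩
  · simp [inner_smul_right, hxw]
  · rw [norm_smul, Real.norm_of_nonneg (div_pos hr0 hw).le, div_mul_cancel₀ _ hw.ne']
  · rw [cos_arccos (neg_le_of_abs_le hcb) (le_of_abs_le hcb), sin_arccos, smul_smul]
    have hp2 : ‖p‖ ^ 2 = r ^ 2 * (1 - c ^ 2) := by
      rw [norm_sub_sq_real, norm_smul, real_inner_smul_right, real_inner_comm, hr,
        Real.norm_eq_abs, mul_pow, sq_abs]
      simp only [c, r]; field_simp; ring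
    have hpn : ‖p‖ = t * ‖w‖ := by rw [hpt, norm_smul, Real.norm_of_nonneg ht]
    have hsq : sqrt (1 - c ^ 2) = t * ‖w‖ / r := by
      rw [sqrt_eq_iff_eq_sq (by nlinarith [abs_le.1 hcb, sq_abs c]) (by positivity)]
      rw [← hpn]
      simp only [div_pow, hp2]
      field_simp
    rw [hsq, show t * ‖w‖ / r * (r / ‖w‖) = t by field_simp, ← hpt]
    simp [p]

lemma sphere_dist_le (hn : 3 ≤ n) (hF : ContDiffOn ℝ 2 F (Set.Ioi 0))
    (hS : ∀ x : EuclideanSpace ℝ (Fin n), x ≠ 0 → 1 ≤ scalarCurvature (radialMetric n F) x)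
    (U : Set (EuclideanSpace ℝ (Fin n))) (hU : ∀ x, x ≠ 0 → x ∈ U)
    {x y : EuclideanSpace ℝ (Fin n)} (hx : x ∈ U) (hxy : ‖x‖ = ‖y‖) :
    riemDist (radialMetric n F) U x y ≤
      ENNReal.ofReal (π * sqrt ((n : ℝ) * ((n : ℝ) - 1))) := by
  obtain ⟨z, θ, hθ, hxz, hz, hy⟩ := exists_orth (by omega) x y hxy.symm
  set γ : ℝ → EuclideanSpace ℝ (Fin n) := fun t => cos (θ * t) • x + sin (θ * t) • z
  have hn1 : ∀ a b : ℝ, ‖a • x + b • z‖ ^ 2 = (a ^ 2 + b ^ 2) * ‖x‖ ^ 2 := by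
    intro a b
    rw [norm_add_sq_real, real_inner_smul_left, inner_smul_right, hxz, norm_smul, norm_smul, hz,
      mul_pow, mul_pow, Real.norm_eq_abs, Real.norm_eq_abs, sq_abs, sq_abs]
    ring
  have hγ : ∀ t, ‖γ t‖ ^ 2 = ‖x‖ ^ 2 := fun t => by
    rw [hn1, cos_sq_add_sin_sq, one_mul]
  have hd : ∀ t, HasDerivAt γ ((-(θ * sin (θ * t))) • x + (θ * cos (θ * t)) • z) t := by
    intro t
    have h := (hasDerivAt_id' t).const_mul θ
    exact ((h.cos.congr_deriv (by ring)).smul_const x).add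
      ((h.sin.congr_deriv (by ring)).smul_const z)
  have hmem : ∀ t ∈ Set.Icc (0 : ℝ) 1, γ t ∈ U := by
    intro t _
    by_cases h0 : γ t = 0
    · have : x = 0 := by have := hγ t; rw [h0] at this; simpa using this.symm
      rw [h0, ← this]; exact hx
    · exact hU _ h0
  refine iInf₂_le_of_le γ ⟨?_, by simp [γ], by simp [γ, hy], hmem⟩ ?_
  · fun_prop
  have hint : ∀ t : ℝ, sqrt (∑ i, ∑ j,
      radialMetric n F (γ t) i j * deriv γ t i * deriv γ t j) =
      θ * sqrt (‖x‖ ^ 2 * exp (2 * F (‖x‖ ^ 2))) := by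
    intro t
    have : (∑ i, ∑ j, radialMetric n F (γ t) i j * deriv γ t i * deriv γ t j) =
        exp (2 * F (‖x‖ ^ 2)) * ‖deriv γ t‖ ^ 2 := by
      rw [EuclideanSpace.real_norm_sq_eq (deriv γ t), Finset.mul_sum]
      simp [radialMetric, hγ t, Matrix.one_apply, sq, mul_assoc]
    rw [this, (hd t).deriv, hn1,
      show exp (2 * F (‖x‖ ^ 2)) * (((-(θ * sin (θ * t))) ^ 2 + (θ * cos (θ * t)) ^ 2) * ‖x‖ ^ 2) =
        θ ^ 2 * (‖x‖ ^ 2 * exp (2 * F (‖x‖ ^ 2))) by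
          linear_combination (θ ^ 2 * exp (2 * F (‖x‖ ^ 2)) * ‖x‖ ^ 2) * sin_sq_add_cos_sq (θ * t),
      sqrt_mul (sq_nonneg θ), sqrt_sq hθ.1]
  rw [pathLength]
  simp only [hint, MeasureTheory.setLIntegral_const, Real.volume_Icc, sub_zero, ENNReal.ofReal_one,
    mul_one]
  refine ENNReal.ofReal_le_ofReal (mul_le_mul hθ.2 (sqrt_le_sqrt ?_) (sqrt_nonneg _) pi_pos.le)
  rcases eq_or_ne x 0 with rfl | hx0
  · have : (3 : ℝ) ≤ n := by exact_mod_cast hn
    simp; nlinarith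
  · exact warping_bound hn hF hS (by positivity)

end Vale.Agent.P210
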